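import Vale.Agent.P033.Final

theorem Vale.Agent.Results.P033.A_full.result (n : ℕ) (hn : 1 ≤ n) :
    (∃ H : Matrix (Fin n) (Fin n) ℝ,
      (∀ i j, H i j = 1 ∨ H i j = -1) ∧
      H * H.transpose = (n : ℝ) • (1 : Matrix (Fin n) (Fin n) ℝ) ∧
      ∃ h : ℤ → ℝ, ∀ i j : Fin n, H i j = h ((((j : ℕ) : ℤ) - ((i : ℕ) : ℤ)) % (n : ℤ))) ↔
    (n = 1 ∨ n = 4) :=
  Vale.Agent.P033.circulant_hadamard_iff n hn
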